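import Vale.Agent.P159.Stmt

/-! XY model: internal definitions. FROZEN. -/

open MeasureTheory Filter Topology Real Set

noncomputable section

namespace Vale.Agent.P159

/-- The sine of an angle. -/
def sn (t : T) : ℝ := Real.Angle.sin t

@[fun_prop] theorem continuous_cs : Continuous cs := Real.Angle.continuous_cos
@[fun_prop] theorem continuous_sn : Continuous sn := Real.Angle.continuous_sin
theorem cs_coe (x : ℝ) : cs (x : T) = cos x := rfl
theorem sn_coe (x : ℝ) : sn (x : T) = sin x := rfl
theorem cs_zero : cs 0 = 1 := Real.Angle.cos_zero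
theorem sn_zero : sn 0 = 0 := Real.Angle.sin_zero
theorem cs_neg (t : T) : cs (-t) = cs t := Real.Angle.cos_neg t
theorem sn_neg (t : T) : sn (-t) = -sn t := Real.Angle.sin_neg t
theorem cs_add (s t : T) : cs (s + t) = cs s * cs t - sn s * sn t := Real.Angle.cos_add s t
theorem sn_add (s t : T) : sn (s + t) = sn s * cs t + cs s * sn t := Real.Angle.sin_add s t
theorem cs_sub (s t : T) : cs (s - t) = cs s * cs t + sn s * sn t := by
  rw [sub_eq_add_neg, cs_add, cs_neg, sn_neg]; ring
theorem sn_sub (s t : T) : sn (s - t) = sn s * cs t - cs s * sn t := by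
  rw [sub_eq_add_neg, sn_add, cs_neg, sn_neg]; ring
theorem cs_comm (s t : T) : cs (s - t) = cs (t - s) := by rw [← cs_neg, neg_sub]
theorem cs_sq (t : T) : cs t ^ 2 + sn t ^ 2 = 1 := Real.Angle.cos_sq_add_sin_sq t
theorem abs_cs_le (t : T) : |cs t| ≤ 1 := by
  rw [← sq_le_one_iff_abs_le_one]; nlinarith [cs_sq t, sq_nonneg (sn t)]
theorem cs_add_pi (t : T) : cs (t + ((π : ℝ) : T)) = -cs t := Real.Angle.cos_add_pi t

variable {V : Type} [Fintype V]

instance haar_prob : IsProbabilityMeasure (haar V) := by unfold haar; infer_instance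
instance haar_haar : (haar V).IsAddHaarMeasure := by unfold haar; infer_instance

/-- Continuous surjective homomorphisms preserve the integral. -/
theorem integral_hom {V' : Type} [Fintype V'] {E : Type} [NormedAddCommGroup E] [NormedSpace ℝ E]
    (φ : (V → T) →+ (V' → T)) (hc : Continuous φ) (hs : Function.Surjective φ)
    {f : (V' → T) → E} (hf : Continuous f) : ∫ θ, f (φ θ) ∂haar V = ∫ θ, f θ ∂haar V' := by
  have h : MeasurePreserving φ (haar V) (haar V') :=
    AddMonoidHom.measurePreserving hc hs (by simp)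
  rw [← h.map_eq, integral_map h.measurable.aemeasurable hf.aestronglyMeasurable]

theorem integrable_of_cont {E : Type} [NormedAddCommGroup E] {f : (V → T) → E}
    (hf : Continuous f) : Integrable f (haar V) :=
  hf.integrable_of_hasCompactSupport (HasCompactSupport.of_compactSpace f)

/-- The energy with couplings `K`. -/
def H (K : V → V → ℝ) (θ : V → T) : ℝ := 1 / 2 * ∑ u, ∑ v, K u v * cs (θ u - θ v)

@[fun_prop] theorem continuous_H (K : V → V → ℝ) : Continuous (H K) := by
  unfold H; fun_prop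

/-- The partition function. -/
def Z (K : V → V → ℝ) : ℝ := ∫ θ, exp (H K θ) ∂haar V

/-- The unnormalised two point function. -/
def W (K : V → V → ℝ) (a c : V) : ℝ := ∫ θ, cs (θ a - θ c) * exp (H K θ) ∂haar V

/-- The two point function. -/
def G (K : V → V → ℝ) (a c : V) : ℝ := W K a c / Z K

theorem Z_pos (K : V → V → ℝ) : 0 < Z K := integral_exp_pos (integrable_of_cont (by fun_prop))

theorem W_comm (K : V → V → ℝ) (a c : V) : W K a c = W K c a :=
  integral_congr_ae (Eventually.of_forall fun θ => by simp only [cs_comm (θ a) (θ c)])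

theorem W_self (K : V → V → ℝ) (a : V) : W K a a = Z K := by simp [W, Z, cs_zero]

theorem W_le_Z (K : V → V → ℝ) (a c : V) : W K a c ≤ Z K :=
  integral_mono (integrable_of_cont (by fun_prop)) (integrable_of_cont (by fun_prop)) fun θ =>
    mul_le_of_le_one_left (exp_pos _).le (le_of_abs_le (abs_cs_le _))

/-- The couplings scaled by radii. -/
def sc (J : V → V → ℝ) (r : V → ℝ) (u v : V) : ℝ := r u * r v * J u v

/-- The two point function of spins of lengths `r`. -/
def F (J : V → V → ℝ) (r : V → ℝ) (a c : V) : ℝ := r a * r c * W (sc J r) a c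

/-- Admissible couplings. -/
structure Adm (J : V → V → ℝ) : Prop where
  nonneg : ∀ u v, 0 ≤ J u v
  symm : ∀ u v, J u v = J v u
  diag : ∀ u, J u u = 0

/-- A cone of continuous functions. -/
structure IsCone {Y : Type} [TopologicalSpace Y] (P : Set (Y → ℝ)) : Prop where
  cont : ∀ p ∈ P, Continuous p
  one : (fun _ => 1) ∈ P
  mul : ∀ p ∈ P, ∀ q ∈ P, (fun y => p y * q y) ∈ P
  add : ∀ p ∈ P, ∀ q ∈ P, (fun y => p y + q y) ∈ P
  smul : ∀ c : ℝ, 0 ≤ c → ∀ p ∈ P, (fun y => c * p y) ∈ P

/-- Weights which are positive on the cone. -/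
def Good {Y : Type} [TopologicalSpace Y] [MeasurableSpace Y] (μ : Measure Y) (P : Set (Y → ℝ))
    (g : Y → ℝ) : Prop := Continuous g ∧ ∀ p ∈ P, 0 ≤ ∫ y, p y * g y ∂μ

/-- Sums of squares of the duplicated system: `θ (inl v)` and `θ (inr v)` are the two copies. -/
inductive Sq (V : Type) : ((V ⊕ V → T) → ℝ) → Prop
  | base (f : (V → T) → ℝ) (hf : Continuous f) :
      Sq V fun θ => f (fun v => θ (.inl v)) * f (fun v => θ (.inr v))
  | add (p q : (V ⊕ V → T) → ℝ) : Sq V p → Sq V q → Sq V fun θ => p θ + q θ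

/-- The couplings of the box. -/
def KB (R : ℕ) (b : ℝ) (x y : box R) : ℝ := b * nb x.1 y.1

/-- The sup norm. -/
def nrm (x : ℤ × ℤ) : ℕ := max x.1.natAbs x.2.natAbs

/-- The infinite volume two point function. -/
def Gam (b : ℝ) (x y : ℤ × ℤ) : ℝ := ⨆ R, corr R b x y

theorem KB_adm (R : ℕ) {b : ℝ} (hb : 0 ≤ b) : Adm (KB R b) where
  nonneg u v := mul_nonneg hb (by unfold nb; split_ifs <;> norm_num)
  symm u v := by simp only [KB, nb, abs_sub_comm u.1.1, abs_sub_comm u.1.2]
  diag u := by simp [KB, nb]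

theorem corr_eq (R : ℕ) (b : ℝ) (x y : box R) : corr R b x.1 y.1 = G (KB R b) x y := by
  have e : ∀ θ, b * energy R θ = H (KB R b) θ := fun θ => by
    simp only [energy, H, KB, Finset.mul_sum]
    exact Finset.sum_congr rfl fun _ _ => Finset.sum_congr rfl fun _ _ => by ring
  rw [corr, dif_pos ⟨x.2, y.2⟩]
  simp only [e]
  rfl

theorem mem_box {R : ℕ} {x : ℤ × ℤ} : x ∈ box R ↔ nrm x ≤ R := by
  simp only [box, nrm, Finset.mem_product, Finset.mem_Icc]
  omega

end Vale.Agent.P159
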